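import Vale.Agent.P106.U.H489.Cls
import Vale.Agent.P106.U.H480.Gro

/-! # P106 / U / H489 : helper480's `PCls` (helper489) -/

set_option autoImplicit false

namespace Vale.Agent.P106.U.H489

open Vale.Agent.P127 Vale.Agent.P127.Stk Vale.Agent.P127.U Vale.Agent.P106.W Vale.Agent.P106.K Vale.Agent.P106.U

theorem pCls : G480.PCls := by
  intro c c' lam k hc hcc h0 h1 hk
  obtain ⟨K, hK, h⟩ := clsX c c' hc (by linarith)
  refine ⟨(1 + k + 0) * K, fun Ω _ γ P l t C e L a ha _ => ?_⟩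
  exact h Ω γ P l t C e L a lam k 0 h0 h1 hk le_rfl ha

end Vale.Agent.P106.U.H489
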