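import Vale.Agent.P106.U.H416.Val
import Vale.Agent.P106.W.Const

/-!
# P106 / U / H489 : the class of the labels (helper489)

* `cls_geo` : the rays of a dyadic box of class `c` are in `m(c)` dyadic boxes of the strict class (`|α| u2, |κ| u2 ≤ 1/8`,
  membership with the constant `1`), with `b ≤ b' ≤ b + A`, `R' ≤ R ≤ R' + A`.
* `clsX` : `XX` of class `c'` is at most `XX` of class `c` plus a constant.
-/

set_option autoImplicit false

namespace Vale.Agent.P106.U.H489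

open Vale.Agent.P127 Vale.Agent.P127.Stk Vale.Agent.P127.U Vale.Agent.P106.W Vale.Agent.P106.K Vale.Agent.P106.U
open Vale.Agent.P122.C2 (fn)

/-- the thickness does not matter when it is below `u2²` -/
theorem bin_H {c : ℝ} {B : Cbx} {H : ℝ} (h0 : 0 ≤ H) (h : H ≤ B.u2 ^ 2) (l : Ry) : Bin c B H l ↔ Bin c B 0 l := by
  have e1 : max (B.u2 ^ 2) H = B.u2 ^ 2 := max_eq_left h
  have e2 : max (B.u2 ^ 2) 0 = B.u2 ^ 2 := max_eq_left (h0.trans h)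
  unfold Bin
  rw [e1, e2]

theorem bin_mono {c c' : ℝ} (hc : c ≤ c') {B : Cbx} {H : ℝ} {l : Ry} (h1 : 0 ≤ B.u1) (h2 : 0 ≤ B.u2) (h : Bin c B H l) :
    Bin c' B H l := by
  obtain ⟨a1, a2, a3, a4, a5⟩ := h
  have m2 := mul_le_mul_of_nonneg_right hc h2
  have m1 := mul_le_mul_of_nonneg_right hc h1
  exact ⟨fun k => (a1 k).trans m2, fun k => (a2 k).trans m2,
    a3.trans (mul_le_mul_of_nonneg_right hc (le_max_of_le_left (by positivity))), a4.trans m1, a5.trans m1⟩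

theorem bin_of_in {B : Cbx} {H : ℝ} {l : Ry} (h : B.In H l.y l.s l.z) : Bin 1 B H l := by
  obtain ⟨a1, a2, a3, a4, a5⟩ := h
  unfold Bin
  simp only [one_mul]
  exact ⟨a1, a2, a3, a4, a5⟩

theorem hp (n : ℕ) : (0 : ℝ) < (1 / 2) ^ n := by positivity

theorem hp_le {a b : ℕ} (h : a ≤ b) : ((1 : ℝ) / 2) ^ b ≤ (1 / 2) ^ a :=
  pow_le_pow_of_le_one (by norm_num) (by norm_num) h

theorem hp_lt {a b : ℕ} (h : ((1 : ℝ) / 2) ^ b < (1 / 2) ^ a) : a < b := by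
  by_contra hcon
  exact absurd h (not_lt.2 (hp_le (not_lt.1 hcon)))

theorem hp_le' {a b : ℕ} (h : ((1 : ℝ) / 2) ^ b ≤ (1 / 2) ^ a) : a ≤ b := by
  by_contra hcon
  have h1 : b < a := not_le.1 hcon
  have h2 : ((1 : ℝ) / 2) ^ a < (1 / 2) ^ b := pow_lt_pow_right_of_lt_one₀ (by norm_num) (by norm_num) h1
  linarith

theorem two_half (e R : ℕ) (h : e ≤ R) : (2 : ℝ) ^ e * (1 / 2) ^ R = (1 / 2) ^ (R - e) := by
  obtain ⟨k, rfl⟩ := Nat.exists_eq_add_of_le h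
  rw [Nat.add_sub_cancel_left, pow_add, ← mul_assoc, ← mul_pow]
  norm_num

theorem half_div (b d : ℕ) : ((1 : ℝ) / 2) ^ b / 2 ^ d = (1 / 2) ^ (b + d) := by
  rw [pow_add, div_eq_mul_inv]
  congr 1
  rw [one_div, inv_pow]

/-- what a piece satisfies -/
structure Pc (e : ℕ) (b R : ℕ) (B : Cbx) : Prop where
  sh : ∃ b' R' : ℕ, B.u2 = (1 / 2 : ℝ) ^ b' ∧ B.u1 = (1 / 2 : ℝ) ^ R' ∧ b' ≤ R' ∧ b ≤ b' ∧ b' ≤ b + 2 * e ∧ R' ≤ R ∧
    R ≤ R' + 2 * e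
  α2 : |B.α| * B.u2 ≤ 1 / 8
  κ2 : |B.κ| * B.u2 ≤ 1 / 8

theorem cutd {e : ℕ} (he : 2 ≤ e) {B : Cbx} {b R : ℕ} (h2 : B.u2 = (1 / 2 : ℝ) ^ b) (h1 : B.u1 = (1 / 2 : ℝ) ^ R)
    (hbR : b ≤ R) (hα : |B.α| * B.u2 ≤ 2 ^ e / 4) (hκ : |B.κ| * B.u2 ≤ 2 ^ e / 4) {l' : Ry}
    (hin : Bin (2 ^ e / 4) B 0 l') :
    ∃ B' : Cbx, Pc e b R B' ∧ ∀ l : Ry, Bin (2 ^ e / 4) B 0 l →
      keyc B (2 ^ e) (2 ^ (2 * e)) (((1 / 2 : ℝ) ^ (R + 2 * e)) ^ 2) l =
        keyc B (2 ^ e) (2 ^ (2 * e)) (((1 / 2 : ℝ) ^ (R + 2 * e)) ^ 2) l' → Bin 1 B' 0 l := by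
  set c : ℝ := 2 ^ e / 4 with hcdef
  have h4e : (4 : ℝ) ≤ 2 ^ e := by
    calc (4 : ℝ) = 2 ^ 2 := by norm_num
      _ ≤ 2 ^ e := pow_le_pow_right₀ (by norm_num) he
  have hc1 : 1 ≤ c := by
    rw [hcdef, le_div_iff₀ (by norm_num)]
    linarith
  have hc0 : 0 < c := by linarith
  set H : ℝ := ((1 / 2 : ℝ) ^ (R + 2 * e)) ^ 2 with hHdef
  have hH : 0 < H := by positivity
  have hu2 : 0 < B.u2 := by rw [h2]; positivity
  have hu1 : 0 < B.u1 := by rw [h1]; positivity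
  have hu12 : B.u1 ≤ B.u2 := by rw [h1, h2]; exact hp_le hbR
  have hu2' : B.u2 ≤ 1 := by rw [h2]; exact pow_le_one₀ (by norm_num) (by norm_num)
  have hH1 : H ≤ B.u1 * B.u1 := by
    rw [hHdef, h1, sq]
    exact mul_le_mul (hp_le (by omega)) (hp_le (by omega)) (hp _).le (hp _).le
  have hH2 : H ≤ B.u2 ^ 2 := by nlinarith
  have hthin : ∀ x : ℝ, |x| * B.u2 ≤ c → |x| * H ≤ c * B.u1 := fun x hx => by
    calc |x| * H ≤ |x| * (B.u2 * B.u1) := mul_le_mul_of_nonneg_left (hH1.trans (by nlinarith)) (abs_nonneg _)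
      _ = (|x| * B.u2) * B.u1 := by ring
      _ ≤ c * B.u1 := mul_le_mul_of_nonneg_right hx hu1.le
  have hB : Bok c B B.u1 := ⟨hu1, by nlinarith, by nlinarith, by linarith, hα, hκ⟩
  have hin' : Bin c B H l' := (bin_H hH.le hH2 l').2 hin
  set D : ℝ := ((2 ^ (2 * e) : ℕ) : ℝ) with hDdef
  have hD' : D = 2 ^ (2 * e) := by rw [hDdef]; push_cast; ring
  have hD : 16 * c ^ 2 ≤ D := by
    rw [hD', hcdef, pow_mul']
    apply le_of_eq
    ring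
  have hD0 : (0 : ℝ) < D := by rw [hD']; positivity
  have hD1 : (1 : ℝ) ≤ D := by rw [hD']; exact one_le_pow₀ (by norm_num)
  have hm : (((2 ^ e : ℕ) : ℕ) : ℝ) = 2 ^ e := by push_cast; ring
  have hcm : c ≤ ((2 ^ e : ℕ) : ℝ) := by rw [hm, hcdef]; linarith
  have hm0 : (0 : ℝ) < ((2 ^ e : ℕ) : ℝ) := by rw [hm]; positivity
  have hq4 : B.u2 / (4 * ((2 ^ e : ℕ) : ℝ) * D ^ 2) ≤ B.u2 / D := by
    apply div_le_div_of_nonneg_left hu2.le hD0
    have h3 : (1 : ℝ) ≤ ((2 ^ e : ℕ) : ℝ) := by linarith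
    have h5 : (D : ℝ) ≤ D ^ 2 := by nlinarith
    have h6 : 1 * (D : ℝ) ^ 2 ≤ 4 * ((2 ^ e : ℕ) : ℝ) * D ^ 2 := mul_le_mul_of_nonneg_right (by linarith) (by positivity)
    linarith
  have hdiv : B.u2 / D = (1 / 2) ^ (b + 2 * e) := by rw [h2, hD', half_div]
  have hHD : H ≤ (B.u2 / D) ^ 2 := by
    rw [hdiv, hHdef]
    exact pow_le_pow_left₀ (hp _).le (hp_le (by omega)) 2
  have h4c : 4 * c = 2 ^ e := by rw [hcdef]; ring
  rcases le_or_gt (4 * c * B.u1) (B.u2 / D) with hcase | hcase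
  · obtain ⟨L, θ', g1, g2, g3⟩ := cutc_slab hc1 hu1 hH hB (hthin _ hα) (hthin _ hκ) hD hcase hin'
    have heR : b + 2 * e + e ≤ R := by
      rw [hdiv, h4c, h1] at hcase
      have h5 : ((1 : ℝ) / 2) ^ R ≤ (1 / 2) ^ (b + 2 * e + e) := by
        rw [← half_div (b + 2 * e) e, le_div_iff₀ (by positivity)]
        linarith
      exact hp_le' h5
    have e1 : 4 * c * B.u1 = (1 / 2) ^ (R - e) := by
      rw [h4c, h1, two_half e R (by omega)]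
    refine ⟨_, ⟨⟨b + 2 * e, R - e, hdiv, e1, by omega, by omega, by omega, by omega, by omega⟩, g1.α2, g1.κ2⟩,
      fun l hl hk => ?_⟩
    have hl' : Bin c B H l := (bin_H hH.le hH2 l).2 hl
    obtain ⟨c1, c2, c3⟩ := cell_dist hu2 hm0 hcm hc0 hD0 hin' l hk
    have h7 := g3 l hl' (fun k => (c1 k).trans hq4) (fun k => (c2 k).trans hq4) (c3.trans (max_div_le hH hD1))
    exact (bin_H hH.le hHD l).1 (bin_of_in h7)
  · obtain ⟨g1, g2, g3⟩ := cutc_ball hc1 hu1 (by linarith) hH hB hD hcase l'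
    have hmax : max (B.u2 / D) B.u1 = (1 / 2) ^ (min (b + 2 * e) R) := by
      rw [hdiv, h1]
      rcases le_total (b + 2 * e) R with h | h
      · rw [max_eq_left (hp_le h), min_eq_left h]
      · rw [max_eq_right (hp_le h), min_eq_right h]
    have heR : R < b + 2 * e + e := by
      rw [hdiv, h4c, h1] at hcase
      have h5 : ((1 : ℝ) / 2) ^ (b + 2 * e + e) < (1 / 2) ^ R := by
        rw [← half_div (b + 2 * e) e, div_lt_iff₀ (by positivity)]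
        linarith
      exact hp_lt h5
    refine ⟨_, ⟨⟨min (b + 2 * e) R, min (b + 2 * e) R, hmax, hmax, le_rfl, by omega, by omega, by omega, by omega⟩, g1.α2,
      g1.κ2⟩, fun l hl hk => ?_⟩
    obtain ⟨c1, c2, c3⟩ := cell_dist hu2 hm0 hcm hc0 hD0 hin' l hk
    have h7 := g3 l (fun k => (c1 k).trans hq4) (fun k => (c2 k).trans hq4) (c3.trans (max_div_le hH hD1))
    refine (bin_H hH.le ?_ l).1 (bin_of_in h7)
    exact hHD.trans (pow_le_pow_left₀ (by positivity) (le_max_left _ _) 2)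

/-- **the strict class** -/
theorem cls_geo (c : ℝ) : ∃ (m e : ℕ), 0 < m ∧ ∀ (B : Cbx) (b R : ℕ), B.u2 = (1 / 2 : ℝ) ^ b → B.u1 = (1 / 2 : ℝ) ^ R →
    b ≤ R → |B.α| * B.u2 ≤ c → |B.κ| * B.u2 ≤ c → ∃ bx : Fin m → Cbx, ∀ l : Ry, Bin c B 0 l →
      ∃ j, Pc e b R (bx j) ∧ Bin 1 (bx j) 0 l := by
  classical
  obtain ⟨n, hn⟩ := exists_nat_ge (4 * c)
  set e : ℕ := n + 2 with he
  have hne : (n : ℝ) ≤ 2 ^ e := by
    have h1 : n < 2 ^ n := Nat.lt_two_pow_self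
    have h2 : (n : ℝ) < 2 ^ n := by exact_mod_cast h1
    have h3 : (2 : ℝ) ^ n ≤ 2 ^ e := pow_le_pow_right₀ (by norm_num) (by omega)
    linarith
  have hc : c ≤ 2 ^ e / 4 := by
    rw [le_div_iff₀ (by norm_num)]
    linarith
  refine ⟨(keysc (2 ^ e) (2 ^ (2 * e))).card + 1, e, Nat.succ_pos _, ?_⟩
  intro B b R h2 h1 hbR hα hκ
  have hu2 : 0 < B.u2 := by rw [h2]; positivity
  have hu1 : 0 < B.u1 := by rw [h1]; positivity
  set H : ℝ := ((1 / 2 : ℝ) ^ (R + 2 * e)) ^ 2 with hHdef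
  have hH : 0 < H := by positivity
  have hH2 : H ≤ B.u2 ^ 2 := by
    rw [h2, hHdef]
    exact pow_le_pow_left₀ (hp _).le (hp_le (by omega)) 2
  have hex : ∀ k : (Fin 2 → ℤ) × (Fin 2 → ℤ) × ℤ, ∃ B' : Cbx, ∀ l : Ry, Bin (2 ^ e / 4) B 0 l →
      keyc B (2 ^ e) (2 ^ (2 * e)) H l = k → Pc e b R B' ∧ Bin 1 B' 0 l := by
    intro k
    by_cases h : ∃ l' : Ry, Bin (2 ^ e / 4) B 0 l' ∧ keyc B (2 ^ e) (2 ^ (2 * e)) H l' = k
    · obtain ⟨l', hl', hk'⟩ := h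
      obtain ⟨B', g1, g2⟩ := cutd (e := e) (by omega) h2 h1 hbR (hα.trans hc) (hκ.trans hc) hl'
      exact ⟨B', fun l hl hk => ⟨g1, g2 l hl (hk.trans hk'.symm)⟩⟩
    · exact ⟨B, fun l hl hk => absurd ⟨l, hl, hk⟩ h⟩
  choose f hf using hex
  refine ⟨fun j => if h : j.1 < (keysc (2 ^ e) (2 ^ (2 * e))).card then
    f ((keysc (2 ^ e) (2 ^ (2 * e))).equivFin.symm ⟨j.1, h⟩).1 else B, fun l hl => ?_⟩
  have hl1 : Bin (2 ^ e / 4) B 0 l := bin_mono hc hu1.le hu2.le hl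
  have hmem := keyc_mem (m := 2 ^ e) (D := 2 ^ (2 * e)) (H := H) (by positivity)
    (by push_cast; linarith [show (0:ℝ) < 2 ^ e by positivity] : (2 ^ e / 4 : ℝ) ≤ ((2 ^ e : ℕ) : ℝ)) hu2 ((bin_H hH.le hH2 l).2 hl1)
  set j0 := (keysc (2 ^ e) (2 ^ (2 * e))).equivFin ⟨_, hmem⟩ with hj0
  refine ⟨⟨j0.1, by omega⟩, ?_⟩
  have h5 : j0.1 < (keysc (2 ^ e) (2 ^ (2 * e))).card := j0.2
  simp only [h5, dif_pos]
  have h6 : (keysc (2 ^ e) (2 ^ (2 * e))).equivFin.symm ⟨j0.1, h5⟩ = ⟨_, hmem⟩ := by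
    rw [show (⟨j0.1, h5⟩ : Fin _) = j0 from rfl, hj0, Equiv.symm_apply_apply]
  rw [h6]
  exact hf _ l hl1 rfl

/-- the family of the pieces -/
theorem cls_fam (c : ℝ) : ∃ (m e : ℕ) (g : Cbx → Fin m → Cbx), 0 < m ∧ ∀ (B : Cbx) (b R : ℕ), B.u2 = (1 / 2 : ℝ) ^ b →
    B.u1 = (1 / 2 : ℝ) ^ R → b ≤ R → |B.α| * B.u2 ≤ c → |B.κ| * B.u2 ≤ c → ∀ l : Ry, Bin c B 0 l →
      ∃ j, Pc e b R (g B j) ∧ Bin 1 (g B j) 0 l := by
  classical
  obtain ⟨m, e, hm, h⟩ := cls_geo c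
  have h' : ∀ B : Cbx, ∃ bx : Fin m → Cbx, ∀ (b R : ℕ), B.u2 = (1 / 2 : ℝ) ^ b →
    B.u1 = (1 / 2 : ℝ) ^ R → b ≤ R → |B.α| * B.u2 ≤ c → |B.κ| * B.u2 ≤ c → ∀ l : Ry, Bin c B 0 l →
      ∃ j, Pc e b R (bx j) ∧ Bin 1 (bx j) 0 l := by
    intro B
    by_cases hB : ∃ b R : ℕ, B.u2 = (1 / 2 : ℝ) ^ b ∧ B.u1 = (1 / 2 : ℝ) ^ R ∧ b ≤ R ∧ |B.α| * B.u2 ≤ c ∧ |B.κ| * B.u2 ≤ c
    · obtain ⟨b, R, h1, h2, h3, h4, h5⟩ := hB
      obtain ⟨bx, hbx⟩ := h B b R h1 h2 h3 h4 h5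
      refine ⟨bx, fun b' R' h1' h2' _ _ _ l hl => ?_⟩
      have eb : b = b' := by
        rw [h1] at h1'
        exact le_antisymm (hp_le' h1'.ge) (hp_le' h1'.le)
      have eR : R = R' := by
        rw [h2] at h2'
        exact le_antisymm (hp_le' h2'.ge) (hp_le' h2'.le)
      rw [← eb, ← eR]
      exact hbx l hl
    · exact ⟨fun _ => B, fun b R h1 h2 h3 h4 h5 => absurd ⟨b, R, h1, h2, h3, h4, h5⟩ hB⟩
  choose g hg using h'
  exact ⟨m, e, g, hm, hg⟩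

theorem log_half (n : ℕ) : Real.log ((1 / 2 : ℝ) ^ n) = - (n * Real.log 2) := by
  rw [Real.log_pow, one_div, Real.log_inv]
  ring

/-- **a strict label**: loss `(1 + k + La) K` -/
theorem cls_lab (c : ℝ) : ∃ K : ℝ, 0 ≤ K ∧ ∀ (Ω : Type) [Fintype Ω] (γ : Type) (P : Law Ω) (l : Ω → Ry) (t : Ω → ℝ)
    (C : Ω → γ) (e : Ω → ℕ × ℕ) (L a : ℕ) (lam k La : ℝ) (W : Ω → Cbx), 0 ≤ lam → lam ≤ 1 → 0 ≤ k → 0 ≤ La →
    (∀ ω, 0 < P.w ω → LbOk c L a (W ω) (l ω) (t ω)) →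
    ∃ W' : Ω → Cbx, (∀ ω, 0 < P.w ω → LbOk 1 L a (W' ω) (l ω) (t ω) ∧ |(W' ω).α| * (W' ω).u2 ≤ 1 / 8 ∧
        |(W' ω).κ| * (W' ω).u2 ≤ 1 / 8 ∧ dsh (W' ω) (e ω) ≤ dsh (W ω) (e ω) + K) ∧
      val lam P l t C a W ≤ val lam P l t C a W' + K ∧
      valX lam k La P l t C a e W ≤ valX lam k La P l t C a e W' + (1 + k + La) * K := by
  classical
  obtain ⟨m, d, g, hm, hg⟩ := cls_fam c
  have hlog2 : 0 < Real.log 2 := Real.log_pos (by norm_num)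
  have hlm : 0 ≤ Real.log m := Real.log_natCast_nonneg m
  have hld : 0 ≤ Real.log (((2 * d + 1) * (2 * d + 1) : ℕ) : ℝ) := Real.log_natCast_nonneg _
  have hd0 : (0 : ℝ) ≤ d := Nat.cast_nonneg d
  have h4 : 0 ≤ 4 * d * Real.log 2 := by positivity
  refine ⟨Real.log m + 4 * d * Real.log 2 + Real.log (((2 * d + 1) * (2 * d + 1) : ℕ) : ℝ), by positivity, ?_⟩
  intro Ω _ γ P l t C e L a lam k La W h0 h1 hk hLa hW
  -- the index
  have hj : ∀ ω, ∃ j : Fin m, 0 < P.w ω → ∀ b R : ℕ, (W ω).u2 = (1 / 2 : ℝ) ^ b → (W ω).u1 = (1 / 2 : ℝ) ^ R →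
      b ≤ R → Pc d b R (g (W ω) j) ∧ Bin 1 (g (W ω) j) 0 (bl a (l ω) (t ω)) := by
    intro ω
    by_cases hω : 0 < P.w ω
    · obtain ⟨⟨b, R, e1, e2, e3, e4⟩, e5, e6, e7⟩ := hW ω hω
      obtain ⟨j, hj⟩ := hg (W ω) b R e1 e2 e3 e5 e6 _ e7
      refine ⟨j, fun _ b' R' h1' h2' _ => ?_⟩
      have eb : b = b' := by
        rw [e1] at h1'
        exact le_antisymm (hp_le' h1'.ge) (hp_le' h1'.le)
      have eR : R = R' := by
        rw [e2] at h2'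
        exact le_antisymm (hp_le' h2'.ge) (hp_le' h2'.le)
      rw [← eb, ← eR]
      exact hj
    · exact ⟨⟨0, hm⟩, fun h => absurd h hω⟩
  choose j hj using hj
  set W' : Ω → Cbx := fun ω => g (W ω) (j ω) with hW'
  -- pointwise
  have hpt : ∀ ω, 0 < P.w ω → ∃ b R b' R' : ℕ, (W ω).u2 = (1 / 2 : ℝ) ^ b ∧ (W ω).u1 = (1 / 2 : ℝ) ^ R ∧ b ≤ R ∧
      a + R ≤ L ∧ (W' ω).u2 = (1 / 2 : ℝ) ^ b' ∧ (W' ω).u1 = (1 / 2 : ℝ) ^ R' ∧ b' ≤ R' ∧ b ≤ b' ∧ b' ≤ b + 2 * d ∧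
      R' ≤ R ∧ R ≤ R' + 2 * d ∧ |(W' ω).α| * (W' ω).u2 ≤ 1 / 8 ∧ |(W' ω).κ| * (W' ω).u2 ≤ 1 / 8 ∧
      Bin 1 (W' ω) 0 (bl a (l ω) (t ω)) := by
    intro ω hω
    obtain ⟨⟨b, R, e1, e2, e3, e4⟩, e5, e6, e7⟩ := hW ω hω
    obtain ⟨⟨⟨b', R', f1, f2, f3, f4, f5, f6, f7⟩, f8, f9⟩, f10⟩ := hj ω hω b R e1 e2 e3
    exact ⟨b, R, b', R', e1, e2, e3, e4, f1, f2, f3, f4, f5, f6, f7, f8, f9, f10⟩
  have hdsh : ∀ ω, 0 < P.w ω → dsh (W' ω) (e ω) ≤ dsh (W ω) (e ω) + 4 * d * Real.log 2 := by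
    intro ω hω
    obtain ⟨b, R, b', R', e1, e2, e3, e4, f1, f2, f3, f4, f5, f6, f7, f8, f9, f10⟩ := hpt ω hω
    unfold dsh
    rw [e1, e2, f1, f2, log_half, log_half, log_half, log_half]
    have g1 : (b : ℝ) ≤ b' := by exact_mod_cast f4
    have g2 : (b' : ℝ) ≤ b + 2 * d := by exact_mod_cast f5
    have g3 : (R' : ℝ) ≤ R := by exact_mod_cast f6
    have g4 : (R : ℝ) ≤ R' + 2 * d := by exact_mod_cast f7
    have k1 : |-(b' * Real.log 2) + (e ω).1 * Real.log 2| ≤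
        |-(b * Real.log 2) + (e ω).1 * Real.log 2| + 2 * d * Real.log 2 := by
      have e0 : -((b' : ℝ) * Real.log 2) + (e ω).1 * Real.log 2 =
          (-((b : ℝ) * Real.log 2) + (e ω).1 * Real.log 2) + -((b' - b : ℝ) * Real.log 2) := by ring
      rw [e0]
      refine (abs_add_le _ _).trans ?_
      rw [abs_neg, abs_of_nonneg (mul_nonneg (by linarith) hlog2.le)]
      have := mul_le_mul_of_nonneg_right (by linarith : (b' - b : ℝ) ≤ 2 * d) hlog2.le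
      linarith
    have k2 : |-(R' * Real.log 2) + (e ω).2 * Real.log 2| ≤
        |-(R * Real.log 2) + (e ω).2 * Real.log 2| + 2 * d * Real.log 2 := by
      have e0 : -((R' : ℝ) * Real.log 2) + (e ω).2 * Real.log 2 =
          (-((R : ℝ) * Real.log 2) + (e ω).2 * Real.log 2) + ((R - R' : ℝ) * Real.log 2) := by ring
      rw [e0]
      refine (abs_add_le _ _).trans ?_
      rw [abs_of_nonneg (mul_nonneg (by linarith : (0 : ℝ) ≤ R - R') hlog2.le)]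
      have := mul_le_mul_of_nonneg_right (by linarith : (R - R' : ℝ) ≤ 2 * d) hlog2.le
      linarith
    linarith
  -- entropy of the ray
  have hH : Stk.hc P l (fun ω => (W ω, fl1 a (t ω), C ω)) ≤
      Stk.hc P l (fun ω => (W' ω, fl1 a (t ω), C ω)) + Real.log m := by
    have b1 := Stk.hc_le_add' P l j (fun ω => (W ω, fl1 a (t ω), C ω))
    have b2 : Stk.hc P l (fun ω => (j ω, (W ω, fl1 a (t ω), C ω))) ≤ Stk.hc P l (fun ω => (W' ω, fl1 a (t ω), C ω)) := by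
      refine Stk.hc_mono_right P l fun ω ω' _ _ e => ?_
      simp only [Prod.mk.injEq] at e ⊢
      obtain ⟨i1, i2, i3, i4⟩ := e
      exact ⟨by rw [hW']; simp only; rw [i1, i2], i3, i4⟩
    have b3 : Stk.hc P j (fun ω => (W ω, fl1 a (t ω), C ω)) ≤ Real.log m :=
      Stk.hc_le_log P j _ m fun _ _ => ⟨Finset.univ, by simp, fun _ _ _ => Finset.mem_univ _⟩
    linarith
  have hcost : (P.ex fun ω => (3 + lam) * Real.log (W' ω).u2 + (1 - lam) * Real.log (W' ω).u1) ≤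
      (P.ex fun ω => (3 + lam) * Real.log (W ω).u2 + (1 - lam) * Real.log (W ω).u1) + 4 * d * Real.log 2 := by
    have := P.ex_mono (f := fun ω => (3 + lam) * Real.log (W' ω).u2 + (1 - lam) * Real.log (W' ω).u1)
      (g := fun ω => ((3 + lam) * Real.log (W ω).u2 + (1 - lam) * Real.log (W ω).u1) + 4 * d * Real.log 2) (fun ω hω => by
        obtain ⟨b, R, b', R', e1, e2, e3, e4, f1, f2, f3, f4, f5, f6, f7, f8, f9, f10⟩ := hpt ω hω
        show (3 + lam) * Real.log (W' ω).u2 + (1 - lam) * Real.log (W' ω).u1 ≤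
          ((3 + lam) * Real.log (W ω).u2 + (1 - lam) * Real.log (W ω).u1) + 4 * d * Real.log 2
        rw [e1, e2, f1, f2, log_half, log_half, log_half, log_half]
        have g1 : (b : ℝ) ≤ b' := by exact_mod_cast f4
        have g4 : (R : ℝ) ≤ R' + 2 * d := by exact_mod_cast f7
        have p1 : 0 ≤ (3 + lam) * ((b' - b : ℝ) * Real.log 2) :=
          mul_nonneg (by linarith) (mul_nonneg (by linarith) hlog2.le)
        have p2 : 0 ≤ (1 - lam) * ((R' + 2 * d - R : ℝ) * Real.log 2) :=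
          mul_nonneg (by linarith) (mul_nonneg (by linarith) hlog2.le)
        have p3 : 0 ≤ lam * (2 * d * Real.log 2) := mul_nonneg h0 (by positivity)
        have p4 : 0 ≤ 2 * d * Real.log 2 := by positivity
        nlinarith)
    have e1 := P.ex_add (fun ω => (3 + lam) * Real.log (W ω).u2 + (1 - lam) * Real.log (W ω).u1)
      (fun _ => 4 * d * Real.log 2)
    rw [P.ex_const] at e1
    rw [← e1]
    exact this
  have hval : val lam P l t C a W ≤ val lam P l t C a W' + (Real.log m + 4 * d * Real.log 2) := by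
    unfold val
    linarith
  -- the shape
  have hS : Stk.hc P (fun ω => shp (W ω)) (fun ω => (l ω, fl1 a (t ω), C ω)) ≤
      Stk.hc P (fun ω => shp (W' ω)) (fun ω => (l ω, fl1 a (t ω), C ω)) +
        Real.log (((2 * d + 1) * (2 * d + 1) : ℕ) : ℝ) := by
    refine (Stk.hc_le_add P _ (fun ω => shp (W' ω)) _).trans (add_le_add le_rfl ?_)
    refine Stk.hc_le_log P _ _ _ fun ω hω => ?_
    refine ⟨(Finset.range (2 * d + 1) ×ˢ Finset.range (2 * d + 1)).image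
      (fun p : ℕ × ℕ => ((W' ω).u1 * (1 / 2 : ℝ) ^ p.1, (W' ω).u2 * (2 : ℝ) ^ p.2)), ?_, ?_⟩
    · refine Finset.card_image_le.trans ?_
      rw [Finset.card_product, Finset.card_range]
    · intro ω' hω' e0
      simp only [Prod.mk.injEq] at e0
      obtain ⟨i1, -⟩ := e0
      unfold shp at i1
      simp only [Prod.mk.injEq] at i1
      obtain ⟨b, R, b', R', e1, e2, e3, e4, f1, f2, f3, f4, f5, f6, f7, f8, f9, f10⟩ := hpt ω' hω'
      rw [Finset.mem_image]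
      refine ⟨(R - R', b' - b), ?_, ?_⟩
      · rw [Finset.mem_product, Finset.mem_range, Finset.mem_range]
        constructor
        · show R - R' < 2 * d + 1
          omega
        · show b' - b < 2 * d + 1
          omega
      · unfold shp
        rw [← i1.1, ← i1.2, e1, e2, f1, f2]
        simp only [Prod.mk.injEq]
        constructor
        · rw [← pow_add]
          congr 1
          omega
        · rw [mul_comm, two_half (b' - b) b' (by omega)]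
          congr 1
          omega
  have hex : (P.ex fun ω => dsh (W' ω) (e ω)) ≤ (P.ex fun ω => dsh (W ω) (e ω)) + 4 * d * Real.log 2 := by
    have := P.ex_mono (f := fun ω => dsh (W' ω) (e ω)) (g := fun ω => dsh (W ω) (e ω) + 4 * d * Real.log 2) hdsh
    rw [P.ex_add, P.ex_const] at this
    exact this
  refine ⟨W', fun ω hω => ?_, by linarith, ?_⟩
  · obtain ⟨b, R, b', R', e1, e2, e3, e4, f1, f2, f3, f4, f5, f6, f7, f8, f9, f10⟩ := hpt ω hω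
    refine ⟨⟨⟨b', R', f1, f2, f3, by omega⟩, by linarith, by linarith, f10⟩, f8, f9, ?_⟩
    have := hdsh ω hω
    linarith
  · unfold valX
    have q1 := mul_le_mul_of_nonneg_left hex hk
    have q2 := mul_le_mul_of_nonneg_left hS hLa
    have q3 : 0 ≤ k * (Real.log m + Real.log (((2 * d + 1) * (2 * d + 1) : ℕ) : ℝ)) := by positivity
    have q4 : 0 ≤ La * (Real.log m + 4 * d * Real.log 2) := by positivity
    nlinarith

/-- monotonicity in the class -/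
theorem LbOk.mono {c c' : ℝ} (hc : c ≤ c') {L a : ℕ} {B : Cbx} {l : Ry} {t : ℝ} (h : LbOk c L a B l t) :
    LbOk c' L a B l t := by
  obtain ⟨⟨b, R, e1, e2, e3, e4⟩, e5, e6, e7⟩ := h
  exact ⟨⟨b, R, e1, e2, e3, e4⟩, e5.trans hc, e6.trans hc,
    bin_mono hc (by rw [e2]; positivity) (by rw [e1]; positivity) e7⟩

/-- **change of the class** -/
theorem clsX (c c' : ℝ) (hc : 1 ≤ c) (hc' : 0 ≤ c') : ∃ K : ℝ, 0 ≤ K ∧ ∀ (Ω : Type) [Fintype Ω] (γ : Type) (P : Law Ω)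
    (l : Ω → Ry) (t : Ω → ℝ) (C : Ω → γ) (e : Ω → ℕ × ℕ) (L a : ℕ) (lam k La : ℝ), 0 ≤ lam → lam ≤ 1 → 0 ≤ k → 0 ≤ La →
    a ≤ L → XX c' lam k La P l t C e L a ≤ XX c lam k La P l t C e L a + (1 + k + La) * K := by
  obtain ⟨K, hK, h⟩ := cls_lab c'
  refine ⟨K, hK, fun Ω _ γ P l t C e L a lam k La h0 h1 hk hLa ha => ?_⟩
  refine H416.XX_le hc' ha fun Ω' _ P' π W g1 g2 => ?_
  obtain ⟨W', w1, -, w2⟩ := h Ω' γ P' (fun ω => l (π ω)) (fun ω => t (π ω)) (fun ω => C (π ω)) (fun ω => e (π ω)) L a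
    lam k La W h0 h1 hk hLa g2
  have := H416.le_XX (c := c) (e := e) (C := C) ⟨h0, h1⟩ hk hLa g1 (fun ω hω => LbOk.mono hc (w1 ω hω).1)
  linarith

end Vale.Agent.P106.U.H489
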