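import Vale.Agent.P106.U.H489.Cls
import Vale.Agent.P106.U.H523.Lab
import Vale.Agent.P106.U.H875.Mix

/-!
# P106 / U / H489 : `FIX` does not depend on the class (helper489)

* `clsFIX` : `1 ≤ c → FIX c lam N k β → FIX c' lam N k β`; `fixA_iff`.
-/

set_option autoImplicit false

namespace Vale.Agent.P106.U.H489

open Vale.Agent.P127 Vale.Agent.P127.Stk Vale.Agent.P127.U Vale.Agent.P106.W Vale.Agent.P106.K Vale.Agent.P106.U
open Vale.Agent.P127.U.JSB

/-- the support of a conditioned law -/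
theorem cond_pos {Ω : Type} [Fintype Ω] {V : Type*} (P : Law Ω) (E : Ω → V) (z : V) (hz : 0 < P.pr E z) {ω : Ω}
    (h : 0 < (P.cond E z).w ω) : 0 < P.w ω ∧ E ω = z := by
  classical
  have h2 := cond_supp' P E z hz h
  refine ⟨?_, h2⟩
  rw [P.cond_w E z hz, if_pos h2] at h
  rcases (P.nn ω).eq_or_lt with h3 | h3
  · rw [← h3, zero_div] at h
    exact absurd h (lt_irrefl 0)
  · exact h3

/-- **FIX does not depend on the class** -/
theorem clsFIX {c c' lam N k β : ℝ} (hc : 1 ≤ c) (hc' : 1 ≤ c') (h0 : 0 ≤ lam) (h1 : lam ≤ 1) (hk : 0 ≤ k) (hN : 0 ≤ N)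
    (h : FIX c lam N k β) : FIX c' lam N k β := by
  classical
  intro ε hε
  obtain ⟨K, hK⟩ := h ε hε
  obtain ⟨K1, hK1, hl⟩ := cls_lab c'
  obtain ⟨K2, hK2, hx⟩ := clsX c' c hc' (by linarith)
  have hlog2 : 0 < Real.log 2 := Real.log_pos (by norm_num)
  obtain ⟨M, hM⟩ := exists_nat_ge (K1 / Real.log 2)
  have hM' : K1 ≤ M * Real.log 2 := by rwa [div_le_iff₀ hlog2] at hM
  refine ⟨K1 + K + k * (M + M) * Real.log 2 + N * Real.log (((2 * M + 1) * (2 * M + 1) : ℕ) : ℝ) + (1 + k + 0) * K2, ?_⟩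
  intro Ω _ γ P l t C L s e0 W hs hok hW
  obtain ⟨W', g1, g2, -⟩ := hl Ω γ P l t C (fun _ => e0) L s lam k 0 W h0 h1 hk le_rfl (fun ω hω => (hW ω hω).1)
  -- the shape of the strict label
  have hsh : ∀ ω, ∃ e : ℕ × ℕ, 0 < P.w ω → (W' ω).u2 = (1 / 2 : ℝ) ^ e.1 ∧ (W' ω).u1 = (1 / 2 : ℝ) ^ e.2 ∧
      |(e.1 : ℝ) - e0.1| ≤ M ∧ |(e.2 : ℝ) - e0.2| ≤ M := by
    intro ω
    by_cases hω : 0 < P.w ω
    · obtain ⟨⟨⟨b, R, e1, e2, -⟩, -⟩, -, -, g3⟩ := g1 ω hω
      obtain ⟨-, w1, w2⟩ := hW ω hω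
      refine ⟨(b, R), fun _ => ⟨e1, e2, ?_⟩⟩
      unfold dsh at g3
      rw [e1, e2, w1, w2, log_half, log_half, log_half, log_half] at g3
      simp only [neg_add_cancel, abs_zero, add_zero, zero_add] at g3
      have k1 : -((b : ℝ) * Real.log 2) + (e0.1 : ℝ) * Real.log 2 = -(((b : ℝ) - e0.1) * Real.log 2) := by ring
      have k2 : -((R : ℝ) * Real.log 2) + (e0.2 : ℝ) * Real.log 2 = -(((R : ℝ) - e0.2) * Real.log 2) := by ring
      rw [k1, k2, abs_neg, abs_neg, abs_mul, abs_mul, abs_of_pos hlog2] at g3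
      have k3 : 0 ≤ |(b : ℝ) - e0.1| * Real.log 2 := by positivity
      have k4 : 0 ≤ |(R : ℝ) - e0.2| * Real.log 2 := by positivity
      exact ⟨le_of_mul_le_mul_right (by linarith) hlog2, le_of_mul_le_mul_right (by linarith) hlog2⟩
    · exact ⟨e0, fun h => absurd h hω⟩
  choose E hE using hsh
  -- entropy of the shape
  have hcE : ∀ {B : Type} (Z : Ω → B), Stk.hc P E Z ≤ Real.log (((2 * M + 1) * (2 * M + 1) : ℕ) : ℝ) := by
    intro B Z
    refine Stk.hc_le_log P _ _ _ fun ω _ => ?_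
    refine ⟨Finset.Icc (e0.1 - M) (e0.1 + M) ×ˢ Finset.Icc (e0.2 - M) (e0.2 + M), ?_, ?_⟩
    · rw [Finset.card_product, Nat.card_Icc, Nat.card_Icc]
      exact Nat.mul_le_mul (by omega) (by omega)
    · intro ω' hω' _
      obtain ⟨-, -, i1, i2⟩ := hE ω' hω'
      rw [abs_le] at i1 i2
      have j1 : (E ω').1 ≤ e0.1 + M := by
        have : ((E ω').1 : ℝ) ≤ ((e0.1 + M : ℕ) : ℝ) := by push_cast; linarith
        exact_mod_cast this
      have j2 : e0.1 ≤ (E ω').1 + M := by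
        have : (e0.1 : ℝ) ≤ (((E ω').1 + M : ℕ) : ℝ) := by push_cast; linarith
        exact_mod_cast this
      have j3 : (E ω').2 ≤ e0.2 + M := by
        have : ((E ω').2 : ℝ) ≤ ((e0.2 + M : ℕ) : ℝ) := by push_cast; linarith
        exact_mod_cast this
      have j4 : e0.2 ≤ (E ω').2 + M := by
        have : (e0.2 : ℝ) ≤ (((E ω').2 + M : ℕ) : ℝ) := by push_cast; linarith
        exact_mod_cast this
      rw [Finset.mem_product, Finset.mem_Icc, Finset.mem_Icc]
      exact ⟨⟨by omega, j1⟩, by omega, j3⟩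
  -- the letter is a function of the label
  have a1 : val lam P l t C s W' ≤ val lam P l t (fun ω => (C ω, E ω)) s W' := by
    unfold val
    have : Stk.hc P l (fun ω => (W' ω, fl1 s (t ω), C ω)) ≤ Stk.hc P l (fun ω => (W' ω, fl1 s (t ω), (C ω, E ω))) := by
      refine Stk.hc_mono_right P l fun ω ω' hω hω' e => ?_
      simp only [Prod.mk.injEq] at e ⊢
      refine ⟨e.1, e.2.1, e.2.2, ?_⟩
      obtain ⟨i1, i2, -⟩ := hE ω hω
      obtain ⟨i1', i2', -⟩ := hE ω' hω'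
      rw [e.1] at i1 i2
      refine Prod.ext ?_ ?_
      · rw [i1] at i1'
        exact le_antisymm (hp_le' i1'.ge) (hp_le' i1'.le)
      · rw [i2] at i2'
        exact le_antisymm (hp_le' i2'.ge) (hp_le' i2'.le)
    linarith
  -- the conditioned laws
  have a2 : ∀ z, 0 < P.pr E z → val lam (P.cond E z) l t C s W' ≤
      XX c lam k 0 (P.cond E z) l t C (fun _ => e0) L 0 + (k * (M + M) * Real.log 2 +
        ((β + ε) * s * Real.log 2 + K)) + N * Dd (P.cond E z) l t C s := by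
    intro z hz
    obtain ⟨ω0, h5, h6⟩ : ∃ ω0, 0 < P.w ω0 ∧ E ω0 = z := by
      obtain ⟨ω0, h7⟩ := H127.exists_supp (P.cond E z)
      exact ⟨ω0, cond_pos P E z hz h7⟩
    have b1 := hK Ω γ (P.cond E z) l t C L s z W' hs (fun ω hω => hok ω (cond_pos P E z hz hω).1) (fun ω hω => by
      obtain ⟨i1, i2⟩ := cond_pos P E z hz hω
      obtain ⟨i3, i4, -⟩ := hE ω i1
      exact ⟨LbOk.mono hc (g1 ω i1).1, by rw [i3, i2], by rw [i4, i2]⟩)
    have b2 := H523.XX_change (c := c) (lam := lam) (k := k) (k' := k) h0 h1 hk le_rfl hc (P := P.cond E z) (l := l) (t := t)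
      (C := C) (L := L) (a := 0) (Nat.zero_le _) (P' := P.cond E z) (π := id) (Stk.pr_id _) (fun _ => ()) z e0
    have b3 : XX c lam k 0 (P.cond E z) l t C (fun _ => z) L 0 ≤
        XX c lam k 0 (P.cond E z) (fun ω => l (id ω)) (fun ω => t (id ω)) (fun ω => (C (id ω), ())) (fun _ => z) L 0 := by
      refine H416.XX_le (by linarith) (Nat.zero_le _) fun Ω' _ P' π V g3 g4 => ?_
      refine le_trans ?_ (H416.le_XX (C := fun ω => (C (id ω), ())) (e := fun _ => z) ⟨h0, h1⟩ hk le_rfl g3 g4)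
      unfold valX val
      have m1 := Stk.hc_mono_right P' (fun ω => l (π ω)) (Y := fun ω => (V ω, fl1 0 (t (π ω)), (C (π ω), ())))
        (Y' := fun ω => (V ω, fl1 0 (t (π ω)), C (π ω))) (fun ω ω' _ _ e => by
          simp only [Prod.mk.injEq] at e ⊢
          tauto)
      have m2 := Stk.hc_mono_right P' (fun ω => l (π ω)) (Y := fun ω => (V ω, fl1 0 (t (π ω)), C (π ω)))
        (Y' := fun ω => (V ω, fl1 0 (t (π ω)), (C (π ω), ()))) (fun ω ω' _ _ e => by
          simp only [Prod.mk.injEq] at e ⊢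
          tauto)
      simp only [id, zero_mul, add_zero] at *
      linarith
    have b4 : k * (|(z.1 : ℝ) - e0.1| + |(z.2 : ℝ) - e0.2|) * Real.log 2 ≤ k * (M + M) * Real.log 2 := by
      obtain ⟨-, -, i1, i2⟩ := hE ω0 h5
      rw [h6] at i1 i2
      exact mul_le_mul_of_nonneg_right (mul_le_mul_of_nonneg_left (by linarith) hk) hlog2.le
    linarith
  have a3 : ∑ z ∈ img E, P.pr E z * val lam (P.cond E z) l t C s W' ≤
      ∑ z ∈ img E, (P.pr E z * XX c lam k 0 (P.cond E z) l t C (fun _ => e0) L 0 + P.pr E z * (k * (M + M) * Real.log 2 +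
        ((β + ε) * s * Real.log 2 + K)) + N * (P.pr E z * Dd (P.cond E z) l t C s)) := by
    refine Finset.sum_le_sum fun z _ => ?_
    rcases (P.pr_nonneg E z).eq_or_lt with h3 | h3
    · rw [← h3]
      simp
    · have := mul_le_mul_of_nonneg_left (a2 z h3) h3.le
      linarith
  rw [← val_mix E W', Finset.sum_add_distrib, Finset.sum_add_distrib, ← Finset.sum_mul, P.sum_pr_image E, one_mul,
    ← Finset.mul_sum, ← Dd_mix E, ← H416.XX_mix E ⟨h0, h1⟩ hk le_rfl (by linarith) (Nat.zero_le _)] at a3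
  have a4 := H523.XX_change (c := c) (lam := lam) (k := k) (k' := k) h0 h1 hk le_rfl hc (P := P) (l := l) (t := t)
      (C := C) (L := L) (a := 0) (Nat.zero_le _) (P' := P) (π := id) (Stk.pr_id _) E e0 e0
  simp only [sub_self, abs_zero, add_zero, mul_zero, zero_mul, id] at a4
  have a5 := mul_le_mul_of_nonneg_left ((Dd_pair_le (P := P) (l := l) (t := t) (C := C) (a := s) E).trans
    (add_le_add le_rfl (hcE _))) hN
  have a6 := hx Ω γ P l t C (fun _ => e0) L 0 lam k 0 h0 h1 hk le_rfl (Nat.zero_le _)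
  linarith

/-- `FIXA` is `FIX 1` -/
theorem fixA_iff {lam N k β : ℝ} (h0 : 0 ≤ lam) (h1 : lam ≤ 1) (hk : 0 ≤ k) (hN : 0 ≤ N) :
    FIXA lam N k β ↔ FIX 1 lam N k β :=
  ⟨fun h => h 1 le_rfl, fun h _ hc => clsFIX le_rfl hc h0 h1 hk hN h⟩

end Vale.Agent.P106.U.H489
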